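import Vale.Agent.P287Q.G.Coh.DgF0
import Vale.Agent.P269.Mono.DgTop

/-!
# P269, cohomological packages: the smoothing defined by a degeneration
-/

set_option linter.unusedSectionVars false

namespace Vale.Agent.P269.Coh.DgF

open Set Function Topology Filter P291Z Holo Mono Coh Tq Fock MvPolynomial TopologicalSpace

section top

variable {X Y Y' Z : Type} [TopologicalSpace X] [TopologicalSpace Y] [TopologicalSpace Y']
  [TopologicalSpace Z]

theorem map_sq {f : C(X, Y)} {g : C(Y, Z)} {f' : C(X, Y')} {g' : C(Y', Z)}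
    (e : ∀ x, g (f x) = g' (f' x)) (a : H Z) : H.map f (H.map g a) = H.map f' (H.map g' a) := by
  rw [H.map_map, H.map_map, show g.comp f = g'.comp f' from ContinuousMap.ext e]

theorem bij {f : C(X, Y)} (hf : IsHomeomorph f) : Bijective (H.map f) :=
  H.map_bijective_of_homeomorph hf.homeomorph

theorem deg_of_map {f : C(X, Y)} (hf : Injective (H.map f)) {k : ℤ} {a : H Y}
    (ha : H.IsDeg k (H.map f a)) : H.IsDeg k a := by
  obtain ⟨a', h1, h2⟩ := PL.exists_deg ha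
  exact hf h2 ▸ h1

/-- the inverse of a bijective pull-back -/
theorem exists_inv {f : C(X, Y)} (hf : Bijective (H.map f)) : ∃ g : H X →ₗ[ℂ] H Y,
    ∀ a, H.map f (g a) = a :=
  ⟨(LinearEquiv.ofBijective (pl f) hf).symm.toLinearMap,
    (LinearEquiv.ofBijective (pl f) hf).apply_symm_apply⟩

end top

variable {R J K : Type} [Fintype R] [Fintype J] [Fintype K] [DecidableEq R] {T : Tgt R J K} {i : R}
  {b c : J} {r : ℝ}

theorem sub_b (b c : J) : ({b} : Set J) ⊆ {b, c} := fun _ h => .inl h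

theorem sub_c (b c : J) : ({c} : Set J) ⊆ {b, c} := fun _ h => .inr h

variable (h : Dg T i b c r)
include h

theorem zero_sub : ({0} : Set ℂ) ⊆ Metric.closedBall 0 r :=
  singleton_subset_iff.2 (Metric.mem_closedBall_self h.pos.le)

theorem cpt_ovr {A : Set ℂ} (hA : A ⊆ Metric.closedBall 0 r) (hc : IsClosed A) :
    CompactSpace (Quo T.act (ovr T b c A)) ∧ MetrizableSpace (Quo T.act (ovr T b c A)) :=
  h.compact (C := (fun x => x b * x c) ⁻¹' A)
    (Set.ext fun _ => ⟨fun k => ⟨⟨k.1, hA k.2⟩, k.2⟩, fun k => ⟨k.1.1, k.2⟩⟩)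
    (hc.preimage (by fun_prop)) (h.ovr_act _)

theorem cpt_cut {Z : Set J} (hZ : cut T Z ⊆ ovr T b c {0}) :
    CompactSpace (Quo T.act (cut T Z)) ∧ MetrizableSpace (Quo T.act (cut T Z)) :=
  h.compact (C := ⋂ j ∈ Z, {x | x j = 0})
    (Set.ext fun _ => ⟨fun k => ⟨ovr_mono T b c (zero_sub h) (hZ k), mem_iInter₂.2 k.2⟩,
      fun k => ⟨k.1.1, fun j hj => mem_iInter₂.1 k.2 j hj⟩⟩)
    (isClosed_biInter fun _ _ => isClosed_eq (by fun_prop) continuous_const) (h.cut_act _)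

/-- the Mayer-Vietoris sequence of the central fibre -/
theorem mv_zero : ∃ d : H (Quo T.act (cut T {b, c})) →ₗ[ℂ] H (Quo T.act (ovr T b c {0})),
    (∀ k x, H.IsDeg k x → H.IsDeg (k + 1) (d x)) ∧
    Exact d (fun g => (H.map (qinc T.act (cut_left T b c (mem_singleton 0))) g,
      H.map (qinc T.act (cut_right T b c (mem_singleton 0))) g)) ∧
    Exact (fun g => (H.map (qinc T.act (cut_left T b c (mem_singleton 0))) g,
      H.map (qinc T.act (cut_right T b c (mem_singleton 0))) g))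
      (fun p : H _ × H _ => H.map (qinc T.act (cut_anti T (sub_b b c))) p.1 -
        H.map (qinc T.act (cut_anti T (sub_c b c))) p.2) ∧
    Exact (fun p : H _ × H _ => H.map (qinc T.act (cut_anti T (sub_b b c))) p.1 -
        H.map (qinc T.act (cut_anti T (sub_c b c))) p.2) d := by
  have l := cut_left T b c (mem_singleton (0 : ℂ))
  have l' := cut_right T b c (mem_singleton (0 : ℂ))
  have o := ovr_mono T b c (zero_sub h)
  obtain ⟨_, _⟩ := cpt_ovr h (zero_sub h) isClosed_singleton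
  obtain ⟨_, _⟩ := cpt_cut h l
  obtain ⟨_, _⟩ := cpt_cut h l'
  obtain ⟨_, _⟩ := cpt_cut h ((cut_anti T (sub_b b c)).trans l)
  obtain ⟨a1, a2⟩ := h.isEmbedding_qinc l o (h.cut_act _) (h.ovr_act _)
  obtain ⟨b1, b2⟩ := h.isEmbedding_qinc l' o (h.cut_act _) (h.ovr_act _)
  obtain ⟨c1, c2⟩ := h.isEmbedding_qinc (cut_anti T (sub_c b c)) (l'.trans o) (h.cut_act _)
    (h.cut_act _)
  refine exists_mv (a1.continuous.isClosedEmbedding a1.injective)
    (b1.continuous.isClosedEmbedding b1.injective) (c1.continuous.isClosedEmbedding c1.injective)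
    (mk_surj.forall.2 fun _ => rfl) (mk_surj.forall.2 fun x hx => (b2 x).2 ⟨x.2.1, ?_⟩)
    (mk_surj.forall.2 fun x hx => (c2 x).2 ⟨x.2.1, ?_⟩)
  · rintro j rfl
    refine (mul_eq_zero.1 x.2.2).resolve_left fun e => hx ((a2 x).2 ⟨x.2.1, ?_⟩)
    rintro j rfl
    exact e
  · rintro j (rfl | rfl)
    · exact ((a2 ⟨x.1, l' x.2⟩).1 hx).2 _ rfl
    · exact x.2.2 _ rfl

/-- classes of the central fibre extend to a neighbourhood -/
theorem ext_zero (x : H (Quo T.act (ovr T b c {0}))) : ∀ᶠ s in 𝓝[>] (0 : ℝ),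
    ∀ (A : Set ℂ) (h0 : {0} ⊆ A), A ⊆ Metric.closedBall 0 s →
      ∃ w, H.map (qinc T.act (ovr_mono T b c h0)) w = x := by
  obtain ⟨_, _⟩ := cpt_ovr h (zero_sub h) isClosed_singleton
  obtain ⟨_, _⟩ := cpt_ovr h subset_rfl Metric.isClosed_closedBall
  obtain ⟨a1, a2⟩ := h.isEmbedding_qinc (ovr_mono T b c (zero_sub h)) subset_rfl (h.ovr_act _)
    (h.ovr_act _)
  let p : Quo T.act (ovr T b c (Metric.closedBall 0 r)) → ℝ :=
    Quot.lift (fun x => ‖x.1 b * x.1 c‖) fun x y ⟨t, ht, e⟩ => by rw [e, h.mul_act ht]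
  have hp : Continuous p := continuous_quot_lift _
    (Continuous.comp (g := fun x : J → ℂ => ‖x b * x c‖) (by fun_prop) continuous_subtype_val)
  filter_upwards [exists_ext_nhds (a1.continuous.isClosedEmbedding a1.injective) hp
    (mk_surj.forall.2 fun y => (a2 y).trans ((and_iff_right y.2.1).trans norm_le_zero_iff.symm)) x,
    Ioo_mem_nhdsGT h.pos] with s ⟨e, he⟩ hs A h0 hA
  have hA' := ovr_mono T b c (hA.trans (Metric.closedBall_subset_closedBall hs.2.le))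
  have hm : ∀ y, qinc T.act hA' y ∈ {g | p g ≤ s} :=
    mk_surj.forall.2 fun y => mem_closedBall_zero_iff.1 (hA y.2.2)
  let m : C(Quo T.act (ovr T b c A), {g | p g ≤ s}) :=
    ⟨fun y => ⟨qinc T.act hA' y, hm y⟩, (qinc T.act hA').continuous.subtype_mk hm⟩
  refine ⟨H.map m e, ?_⟩
  rw [H.map_map]
  exact he _ (mk_surj.forall.2 fun _ => rfl)

/-- matched classes extend to a neighbourhood of the central fibre -/
theorem mv_nhds [FiniteDimensional ℂ (H (Quo T.act (cut T {b})))]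
    [FiniteDimensional ℂ (H (Quo T.act (cut T {c})))] : ∀ᶠ s in 𝓝[>] (0 : ℝ),
    ∀ (A : Set ℂ) (h0 : 0 ∈ A), A ⊆ Metric.closedBall 0 s → ∀ t1 t2,
      H.map (qinc T.act (cut_anti T (sub_b b c))) t1 =
        H.map (qinc T.act (cut_anti T (sub_c b c))) t2 →
      ∃ w, H.map (qinc T.act (cut_left T b c h0)) w = t1 ∧
        H.map (qinc T.act (cut_right T b c h0)) w = t2 := by
  obtain ⟨d, -, -, h2, -⟩ := mv_zero h
  let V := LinearMap.ker ((pl (qinc T.act (cut_anti T (sub_b b c)))).coprod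
    (-pl (qinc T.act (cut_anti T (sub_c b c)))))
  obtain ⟨S, hS⟩ : V.FG := Module.Finite.iff_fg.1 inferInstance
  have h3 : ∀ v ∈ S, ∀ᶠ s in 𝓝[>] (0 : ℝ), ∀ (A : Set ℂ) (h0 : 0 ∈ A),
      A ⊆ Metric.closedBall 0 s → v ∈ LinearMap.range ((pl (qinc T.act (cut_left T b c h0))).prod
        (pl (qinc T.act (cut_right T b c h0)))) := fun v hv => by
    have hv' : v ∈ V := hS ▸ Submodule.subset_span hv
    obtain ⟨x, rfl⟩ := (h2 v).1 ((sub_eq_add_neg _ _).trans hv')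
    filter_upwards [ext_zero h x] with s hs A h0 hA
    obtain ⟨w, rfl⟩ := hs A (singleton_subset_iff.2 h0) hA
    exact ⟨w, Prod.ext (PL.map_map' (mk_surj.forall.2 fun _ => rfl) w).symm
      (PL.map_map' (mk_surj.forall.2 fun _ => rfl) w).symm⟩
  filter_upwards [(eventually_all_finset S).2 h3] with s hs A h0 hA t1 t2 e
  have : V ≤ LinearMap.range ((pl (qinc T.act (cut_left T b c h0))).prod
      (pl (qinc T.act (cut_right T b c h0)))) :=
    hS ▸ Submodule.span_le.2 fun v hv => hs v hv A h0 hA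
  obtain ⟨w, hw⟩ := this (x := (t1, t2)) (add_neg_eq_zero.2 e)
  exact ⟨w, Prod.ext_iff.1 hw⟩

end Vale.Agent.P269.Coh.DgF

namespace Vale.Agent.P269.Fam.DG

open Set Function Topology Filter P291Z Holo Mono Coh Tq Fock MvPolynomial DgF

variable {R J K : Type} [Fintype R] [Fintype J] [Fintype K] [DecidableEq R]
  {F : Fam Empty (Option Empty) R J K} {i : R} {b c : J} {Ω : Set ℂ} (h : F.DG i b c Ω)

theorem cZ_sub {A : Set ℂ} (h0 : 0 ∈ A) (Z : Set J) : F.cZ Z ⊆ F.cT A := fun _ hz =>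
  ⟨⟨trivial, hz.1.2.symm ▸ h0⟩, ⟨hz.2.1.1, hz.2.1.2.1, fun _ a => a.elim⟩, hz.2.2⟩

theorem cX_sub {A : Set ℂ} {t : ℂ} (ht : t ∈ A) : F.cX t ⊆ F.cT A := fun _ hz =>
  ⟨⟨trivial, hz.1.2.symm ▸ ht⟩, hz.2⟩

theorem hsq {T : Tgt R J K} {Z S : Set (J → ℂ)} {Z' S' : Set ((Option Empty → ℂ) × (J → ℂ))}
    (φ : Hol T.act F.actT Z Z' (fun t => (1, t)) (lft b c))
    (ψ : Hol T.act F.actT S S' (fun t => (1, t)) (lft b c)) (e : Z ⊆ S) (e' : Z' ⊆ S')
    (w : H (F.X S')) : H.map φ.q (H.map (qinc F.actT e') w) = H.map (qinc T.act e) (H.map ψ.q w) :=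
  map_sq (mk_surj.forall.2 fun _ => by rfl) w

theorem qq {T : Tgt R J K} {Z S S' : Set (J → ℂ)} (e : Z ⊆ S) (e' : S ⊆ S')
    (w : H (Quo T.act S')) :
    H.map (qinc T.act e) (H.map (qinc T.act e') w) = H.map (qinc T.act (e.trans e')) w :=
  PL.map_map' (mk_surj.forall.2 fun _ => by rfl) w

include h

theorem exists_dg : ∃ r > 0, Metric.closedBall 0 r ⊆ Ω ∧ Dg (F.tot b c Ω) i b c r := by
  obtain ⟨r, hr, e⟩ := Metric.nhds_basis_closedBall.mem_iff.1 (h.deg.opn.mem_nhds h.deg.zero)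
  exact ⟨r, hr, e, h.dg hr e⟩

theorem isSk_of : ∀ᶠ s in 𝓝[>] (0 : ℝ), Metric.closedBall 0 s ⊆ Ω ∧ ∀ (A : Set ℂ) (t : ℂ),
    A ⊆ Metric.closedBall 0 s → IsLocallyClosed A → segment ℝ 0 t ⊆ A → t ≠ 0 →
    F.IsSk (F.cZ {b}) (F.cZ {c}) (F.cZ {b, c}) (F.cX t) (F.cT A) F.dm (F.lc _ 0 (F.w c)) := by
  obtain ⟨r, hr, e, d⟩ := h.exists_dg
  have := h.qm_left.pd.fin
  have := h.qm_right.pd.fin
  filter_upwards [mv_nhds d, Ioo_mem_nhdsGT hr] with s hs hs'
  have e' := (Metric.closedBall_subset_closedBall hs'.2.le).trans e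
  refine ⟨e', fun A t hA hl hseg h0 => ?_⟩
  have hΩ := hA.trans e'
  have z0 := hseg (left_mem_segment ℝ 0 t)
  have zt := hseg (right_mem_segment ℝ 0 t)
  have eL := h.bij_cut (Z := {b}) (.inl rfl)
  have eR := h.bij_cut (Z := {c}) (.inr rfl)
  have eX := h.bij_ovr (singleton_subset_iff.2 (hΩ zt))
  refine ⟨h.isPc_left, h.isPc_right, h.qm_fib (hΩ zt) h0, h.fp hΩ hl, cZ_sub z0 _, cZ_sub z0 _,
    cX_sub zt, fun t1 t2 e12 => ?_, fun w => ?_⟩
  · obtain ⟨w, w1, w2⟩ := hs A z0 hA (H.map (h.hol_cut (Z := {b}) (.inl rfl)).q t1)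
      (H.map (h.hol_cut (Z := {c}) (.inr rfl)).q t2)
      ((hsq (h.hol_cut (.inl (.inl rfl))) _ _ h.isPc_left.sub t1).symm.trans
        ((congrArg _ e12).trans (hsq _ _ _ h.isPc_right.sub t2)))
    obtain ⟨w, rfl⟩ := (bij (h.bij_ovr hΩ)).2 w
    exact ⟨w, (bij eL).1 ((hsq _ _ _ _ w).trans w1), (bij eR).1 ((hsq _ _ _ _ w).trans w2)⟩
  · have k := d.int ((mem_closedBall_zero_iff.1 (hA zt)).trans_lt hs'.2) h0
      (h.qm_ovr (hΩ zt) h0).isFund h.qm_left.isFund h.qm_right.isFund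
      (H.map (qinc _ (ovr_mono _ b c hseg)) (H.map (h.hol_ovr hΩ).q w))
    rw [← (h.qm_ovr (hΩ zt) h0).J_eq_ev, ← h.qm_left.J_eq_ev, ← h.qm_right.J_eq_ev, qq, qq, qq] at k
    rw [← (h.qm_ovr (hΩ zt) h0).J_map (h.qm_fib (hΩ zt) h0) _ eX.bijective,
      ← h.qm_left.J_map h.isPc_left.qA _ eL.bijective,
      ← h.qm_right.J_map h.isPc_right.qA _ eR.bijective]
    exact (congrArg _ (hsq _ _ _ _ w)).trans (k.trans (congrArg₂ (· + ·)
      (congrArg _ (hsq _ _ _ _ w).symm) (congrArg _ (hsq _ _ _ _ w).symm)))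

/-- **over a small disc** -/
theorem isSk : ∀ᶠ r in 𝓝[>] (0 : ℝ), Metric.ball 0 r ⊆ Ω ∧ ∀ t ∈ Metric.ball (0 : ℂ) r, t ≠ 0 →
    F.IsSk (F.cZ {b}) (F.cZ {c}) (F.cZ {b, c}) (F.cX t) (F.cT (Metric.ball 0 r)) F.dm
      (F.lc _ 0 (F.w c)) := by
  filter_upwards [h.isSk_of, self_mem_nhdsWithin (s := Ioi (0 : ℝ))] with s hs hs'
  exact ⟨Metric.ball_subset_closedBall.trans hs.1, fun t ht => hs.2 _ t
    Metric.ball_subset_closedBall Metric.isOpen_ball.isLocallyClosed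
    ((convex_ball (0 : ℂ) s).segment_subset (Metric.mem_ball_self hs') ht)⟩

/-- **over a small segment** -/
theorem isSk_top : ∀ᶠ t : ℝ in 𝓝[>] 0, ∃ s : F.IsSk (F.cZ {b}) (F.cZ {c}) (F.cZ {b, c}) (F.cX t)
    (F.cT (segment ℝ 0 (t : ℂ))) F.dm (F.lc _ 0 (F.w c)), s.sk.Top := by
  obtain ⟨r, -, -, dg⟩ := h.exists_dg
  obtain ⟨d, d1, d2, -, d3⟩ := mv_zero dg
  filter_upwards [h.isSk_of, dg.top, self_mem_nhdsWithin] with t hs ⟨b0, α, _, a1, _, a2, _⟩ ht
  have ht' : 0 < t := ht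
  have hA : segment ℝ 0 (t : ℂ) ⊆ Metric.closedBall 0 t :=
    (convex_closedBall (0 : ℂ) t).segment_subset (Metric.mem_closedBall_self ht'.le)
      (by rw [mem_closedBall_zero_iff, Complex.norm_of_nonneg ht'.le])
  have hΩ := hA.trans hs.1
  have hc : IsClosed (segment ℝ 0 (t : ℂ)) := by
    rw [segment_eq_image]
    exact (isCompact_Icc.image (by fun_prop)).isClosed
  have s := hs.2 _ t hA hc.isLocallyClosed subset_rfl (Complex.ofReal_ne_zero.2 ht'.ne')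
  have eL := bij (h.bij_cut (Z := {b}) (.inl rfl))
  have eR := bij (h.bij_cut (Z := {c}) (.inr rfl))
  have eD := bij (h.bij_cut (Z := {b, c}) (.inl (.inl rfl)))
  have eA := bij (h.bij_ovr hΩ)
  obtain ⟨g, hg⟩ := exists_inv eA
  obtain ⟨g0, hg0⟩ := exists_inv b0
  refine ⟨s, ⟨g ∘ₗ g0 ∘ₗ d ∘ₗ pl (h.hol_cut (Z := {b, c}) (.inl (.inl rfl))).q, fun k x hx => ?_,
    fun x => ?_, fun x hx => ?_⟩, g ∘ₗ α ∘ₗ pl (h.hol_cut (Z := {b, c}) (.inl (.inl rfl))).q,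
    fun k x hx => ?_, fun w hw => ?_⟩
  · refine deg_of_map eA.1 ((hg _).symm ▸ deg_of_map b0.1 ((hg0 _).symm ▸ ?_))
    exact d1 k _ (hx.map _)
  · have k := Prod.ext_iff.1 (d2.apply_apply_eq_zero
      (H.map (h.hol_cut (Z := {b, c}) (.inl (.inl rfl))).q x))
    rw [← hg0 (d _), ← hg (g0 _)] at k
    exact ⟨eL.1 ((hsq _ (h.hol_ovr hΩ) _ s.s1 _).trans
        ((qq _ _ _).symm.trans (k.1.trans (map_zero _).symm))),
      eR.1 ((hsq _ (h.hol_ovr hΩ) _ s.s2 _).trans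
        ((qq _ _ _).symm.trans (k.2.trans (map_zero _).symm)))⟩
  · have k : d (H.map (h.hol_cut (Z := {b, c}) (.inl (.inl rfl))).q x) = 0 := by
      rw [← hg0 (d _), ← hg (g0 _)]
      exact (congrArg (fun y => H.map _ (H.map _ y)) hx).trans (by rw [map_zero, map_zero])
    obtain ⟨⟨p1, p2⟩, e⟩ := (d3 _).1 k
    obtain ⟨t1, rfl⟩ := eL.2 p1
    obtain ⟨t2, rfl⟩ := eR.2 p2
    refine ⟨t1, t2, eD.1 (e.symm.trans ?_)⟩
    rw [map_sub]
    exact congrArg₂ (· - ·) (hsq _ _ _ s.l.sub _).symm (hsq _ _ _ s.r.sub _).symm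
  · refine deg_of_map eA.1 ((hg _).symm ▸ ?_)
    exact a1 k _ (hx.map _)
  · obtain ⟨a, ha⟩ := (a2 (H.map (h.hol_ovr hΩ).q w)).1
      ((hsq (h.hol_ovr (singleton_subset_iff.2 (hΩ (right_mem_segment ℝ 0 _)))) _ _ s.sX
        w).symm.trans ((congrArg _ hw).trans (map_zero _)))
    obtain ⟨a, rfl⟩ := eD.2 a
    exact ⟨a, eA.1 ((hg _).trans ha)⟩

end Vale.Agent.P269.Fam.DG
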