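import Vale.Agent.P287Q.G.Coh.Is
import Vale.Agent.P269.Mono.DgInt
import Vale.Agent.P287Q.G.Bas.DegN
import Vale.Agent.P287Q.G.Vir.CI

/-!
# P269, cohomological packages: the pieces of a degeneration
-/

set_option linter.unusedSectionVars false

namespace Vale.Agent.P269

open Set Function Topology Filter P291Z Holo Mono Coh Tq Fock MvPolynomial

/-- The parameters over `A`. -/
def dsc (A : Set ℂ) : Set (Option Empty → ℂ) := {l | l ∘ some ∈ (univ : Set (Empty → ℂ)) ∧ l none ∈ A}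

theorem dsc_singleton (t : ℂ) : dsc {t} = slab univ t := rfl

theorem dsc_mono {A A' : Set ℂ} (h : A ⊆ A') : dsc A ⊆ dsc A' := fun _ x => ⟨x.1, h x.2⟩

namespace Fam

variable {R J K : Type} [Fintype R] [Fintype J] [Fintype K] [DecidableEq R]
  (F : Fam Empty (Option Empty) R J K) {i : R} {b c : J} {Ω : Set ℂ}

theorem CI.sub {S Λ : Type} [Fintype S] [Fintype Λ] {F : Fam S Λ R J K} {B' : Set (Λ → ℂ)}
    {Z : Set J} (h : F.CI) (hB : B' ⊆ F.B) (hZ : F.zer ⊆ Z) : (F.sub B' Z).CI := fun z hz =>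
  have a := h z (cone_sub hB hZ hz)
  ⟨a.ind, a.cut.mono fun _ a b => a (bs_sub hB hZ b)⟩

/-- A degeneration over a disc with independent equations that do not involve the parameter. -/
structure DG (i : R) (b c : J) (Ω : Set ℂ) : Prop where
  deg : F.Deg i b c univ Ω
  good : F.Good
  reg : F.CI
  cst : ∀ k, ∃ G, F.G k = MvPolynomial.map C G

/-- The dimension of the double locus. -/
def dm (_F : Fam Empty (Option Empty) R J K) : ℤ :=
  Fintype.card J - Fintype.card K - Fintype.card R - 2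

/-- The part of the central fibre where the fields in `Z` vanish. -/
abbrev cZ (Z : Set J) : Set ((Option Empty → ℂ) × (J → ℂ)) := (F.sub (slab univ 0) Z).cone

/-- The part over `A`. -/
abbrev cT (A : Set ℂ) : Set ((Option Empty → ℂ) × (J → ℂ)) := (F.sub (dsc A) ∅).cone

/-- The member `t`. -/
abbrev cX (t : ℂ) : Set ((Option Empty → ℂ) × (J → ℂ)) := (F.sub (slab univ t) ∅).cone

/-- The point of the family given by the fields. -/
def lft (b c : J) (y : J → ℂ) : (Option Empty → ℂ) × (J → ℂ) := (fun _ => y b * y c, y)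

/-- The total space as a target. -/
noncomputable def tot (b c : J) (Ω : Set ℂ) : Tgt R J K where
  w := F.w
  U := {y | lft b c y ∈ F.U ∧ y b * y c ∈ Ω}
  F := (F.fib 0).F
  θ := F.θ

variable {F}

instance (T : Tgt R J K) : IsAct T.act univ where
  one x _ := _root_.funext fun j => by simp [Tgt.act]
  mul s t _ _ x _ := _root_.funext fun j => by
    simp only [Tgt.act, Pi.mul_apply, mul_zpow, Finset.prod_mul_distrib, mul_assoc]
  mem _ _ _ _ := trivial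
  an t ht x _ := analyticAt_pi_iff.2 fun j =>
    (an_prod_zpow analyticAt_fst (isUnit_pi_iff.1 ht) _).mul (analyticAt_pi_iff.1 analyticAt_snd j)

theorem lin_act (T : Tgt R J K) (a : R → ℂ) (_ : IsUnit a) : IsLinearMap ℂ (T.act a) :=
  ⟨fun _ _ => _root_.funext fun _ => mul_add _ _ _,
    fun _ _ => _root_.funext fun _ => mul_left_comm _ _ _⟩

namespace DG

theorem par_eq (l : Option Empty → ℂ) : l = fun _ => l none := _root_.funext fun o => by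
  rcases o with _ | e
  exacts [rfl, e.elim]

theorem actL_eq (τ : Empty → ℂ) (l : Option Empty → ℂ) : F.actL τ l = l :=
  _root_.funext fun a => by simp [Wt.actL]

variable (b c Ω) in
theorem actT_eq (t : (Empty → ℂ) × (R → ℂ)) (z : (Option Empty → ℂ) × (J → ℂ)) :
    F.actT t z = (z.1, (F.tot b c Ω).act t.2 z.2) :=
  Prod.ext (actL_eq _ _) (_root_.funext fun j => by simp [Wt.actT, Tgt.act, tot])

theorem an_lft (y : J → ℂ) : AnalyticAt ℂ (lft b c) y :=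
  (analyticAt_pi_iff.2 fun _ => (analyticAt_fst.mul analyticAt_snd).comp (DgI.an_bc b c y)).prod
    analyticAt_id

theorem continuous_lft : Continuous (lft b c) :=
  continuous_iff_continuousAt.2 fun y => (an_lft y).continuousAt

theorem isUnit_one_prod {t : R → ℂ} (ht : IsUnit t) : IsUnit ((1, t) : (Empty → ℂ) × (R → ℂ)) :=
  Prod.isUnit_iff.2 ⟨isUnit_one, ht⟩

variable (h : F.DG i b c Ω)
include h

theorem fib_F (l : Option Empty → ℂ) (k : K) : (F.fib l).F k = (F.tot b c Ω).F k := by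
  obtain ⟨G, e⟩ := h.cst k
  have h1 : ∀ l : Option Empty → ℂ, MvPolynomial.map (eval l) (F.G k) = G := fun l => by
    rw [e, MvPolynomial.map_map, show (MvPolynomial.eval l).comp C = RingHom.id ℂ from
      RingHom.ext fun a => eval_C a, MvPolynomial.map_id]
  exact (h1 l).trans (h1 0).symm

theorem mem {A : Set ℂ} {Z : Set J} {z : (Option Empty → ℂ) × (J → ℂ)} (hA : A ⊆ Ω) :
    z ∈ (F.sub (dsc A) Z).cone ↔ z = lft b c z.2 ∧ z.2 ∈ ovr (F.tot b c Ω) b c A ∧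
      ∀ j ∈ Z, z.2 j = 0 := by
  refine ⟨fun ⟨h1, ⟨h2, h3, h4⟩, h5⟩ => ?_, fun ⟨h1, ⟨⟨h2, h3⟩, h4⟩, h5⟩ => ?_⟩
  · have h6 : z.2 b * z.2 c = z.1 none := h.deg.E.le h3
    have h7 : z = lft b c z.2 := Prod.ext ((par_eq _).trans (_root_.funext fun _ => h6.symm)) rfl
    have h8 : z.2 b * z.2 c ∈ A := h6 ▸ h1.2
    exact ⟨h7, ⟨⟨⟨h7 ▸ h2, hA h8⟩, fun k => h.fib_F z.1 k ▸ h5 k⟩, h8⟩, h4⟩
  · have h6 : z.2 b * z.2 c = z.1 none := (congrArg (·.1 none) h1).symm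
    exact ⟨⟨trivial, h6 ▸ h4⟩, ⟨(congrArg (· ∈ F.U) h1).mpr h2.1, h.deg.E.ge h6, h5⟩,
      fun k => (congrArg (MvPolynomial.eval z.2) (h.fib_F z.1 k)).trans (h3 k)⟩

theorem dsc_sub {A : Set ℂ} (hA : A ⊆ Ω) : dsc A ⊆ F.B := (dsc_mono hA).trans h.deg.B.ge

theorem shrink {Ω' : Set ℂ} (e : Ω' ⊆ Ω) (ho : IsOpen Ω') (hc : Convex ℝ Ω') (h0 : 0 ∈ Ω') :
    (F.sub (dsc Ω') ∅).DG i b c Ω' :=
  ⟨⟨h.deg.ne, h.deg.mov, rfl, h.deg.wb, h.deg.wc, h.deg.θ, rfl, ho, hc, h0, h.deg.E⟩,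
    h.good.sub (h.dsc_sub e) (isOpen_univ.inter (ho.preimage (continuous_apply none))).isLocallyClosed
      (fun τ _ l hl => (actL_eq (F := F) τ l).symm ▸ hl) (h.deg.zer_sub _) (empty_disjoint _),
    h.reg.sub (h.dsc_sub e) (h.deg.zer_sub _), h.cst⟩

theorem act_bc {t : R → ℂ} (ht : IsUnit t) (x : J → ℂ) :
    (F.tot b c Ω).act t x b * (F.tot b c Ω).act t x c = x b * x c := by
  change (∏ l, t l ^ F.w b l) * x b * ((∏ l, t l ^ F.w c l) * x c) = _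
  simp only [h.deg.wb, h.deg.wc, Pi.neg_apply, zpow_neg, Finset.prod_inv_distrib, DgI.prod_single]
  rw [mul_mul_mul_comm, mul_inv_cancel₀ (DgI.ne_zero ht i), one_mul]

theorem lft_act {t : R → ℂ} (ht : IsUnit t) (x : J → ℂ) :
    lft b c ((F.tot b c Ω).act t x) = F.actT (1, t) (lft b c x) :=
  by rw [actT_eq b c Ω]; exact Prod.ext (_root_.funext fun _ => h.act_bc ht x) rfl

theorem cone_eq : F.cone = F.cT Ω := by
  change (F.sub F.B F.zer).cone = _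
  rw [h.deg.B, h.deg.zer]
  rfl

theorem mem_cone {z : (Option Empty → ℂ) × (J → ℂ)} :
    z ∈ F.cone ↔ z = lft b c z.2 ∧ z.2 ∈ (F.tot b c Ω).cone := by
  rw [h.cone_eq, h.mem Subset.rfl]
  exact and_congr_right fun _ => ⟨fun k => k.1.1, fun k => ⟨⟨k, k.1.2⟩, fun _ e => e.elim⟩⟩

theorem lft_mem {x : J → ℂ} : lft b c x ∈ F.cone ↔ x ∈ (F.tot b c Ω).cone :=
  h.mem_cone.trans (and_iff_right rfl)

theorem mem_cT {A : Set ℂ} (hA : A ⊆ Ω) (z : (Option Empty → ℂ) × (J → ℂ)) :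
    z ∈ F.cT A ↔ z = lft b c z.2 ∧ z.2 ∈ ovr (F.tot b c Ω) b c A :=
  (h.mem hA).trans (and_congr_right fun _ => and_iff_left fun _ e => e.elim)

theorem cut_sub {Z : Set J} (hZ : b ∈ Z ∨ c ∈ Z) :
    cut (F.tot b c Ω) Z ⊆ ovr (F.tot b c Ω) b c {0} :=
  fun _ hx => ⟨hx.1, mul_eq_zero.2 (hZ.imp (hx.2 b) (hx.2 c))⟩

theorem mem_cZ {Z : Set J} (hZ : b ∈ Z ∨ c ∈ Z) (z : (Option Empty → ℂ) × (J → ℂ)) :
    z ∈ F.cZ Z ↔ z = lft b c z.2 ∧ z.2 ∈ cut (F.tot b c Ω) Z :=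
  (h.mem (A := {0}) (singleton_subset_iff.2 h.deg.zero)).trans (and_congr_right fun _ =>
    ⟨fun k => ⟨k.1.1, k.2⟩, fun k => ⟨h.cut_sub hZ k, k.2⟩⟩)

theorem act_cone (t : R → ℂ) (ht : IsUnit t) (x : J → ℂ) (hx : x ∈ (F.tot b c Ω).cone) :
    (F.tot b c Ω).act t x ∈ (F.tot b c Ω).cone :=
  h.lft_mem.1 (h.lft_act ht x ▸ h.good.cone_act (isUnit_one_prod ht) (h.lft_mem.2 hx))

theorem act_ovr (A : Set ℂ) (t : R → ℂ) (ht : IsUnit t) (x : J → ℂ)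
    (hx : x ∈ ovr (F.tot b c Ω) b c A) : (F.tot b c Ω).act t x ∈ ovr (F.tot b c Ω) b c A :=
  ⟨h.act_cone t ht x hx.1, (h.act_bc ht x).symm ▸ hx.2⟩

theorem act_cut (Z : Set J) (t : R → ℂ) (ht : IsUnit t) (x : J → ℂ)
    (hx : x ∈ cut (F.tot b c Ω) Z) : (F.tot b c Ω).act t x ∈ cut (F.tot b c Ω) Z :=
  ⟨h.act_cone t ht x hx.1, fun j hj => by rw [Tgt.act, hx.2 j hj, mul_zero]⟩

theorem lc_cone : IsLocallyClosed (F.tot b c Ω).cone :=
  (Set.ext fun _ => h.lft_mem : lft b c ⁻¹' F.cone = _) ▸ h.good.lc_cone.preimage continuous_lft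

theorem lc_ovr {A : Set ℂ} (hl : IsLocallyClosed A) : IsLocallyClosed (ovr (F.tot b c Ω) b c A) :=
  h.lc_cone.inter (hl.preimage (f := fun x : J → ℂ => x b * x c) (by fun_prop))

theorem lc_cut (Z : Set J) : IsLocallyClosed (cut (F.tot b c Ω) Z) :=
  h.lc_cone.inter (Dg.i_isClosed_zero Z).isLocallyClosed

theorem fp_cone : FP (F.tot b c Ω).act (F.tot b c Ω).cone :=
  Tq.fp_of h.act_cone h.lc_cone
    (fun a ha x hx e => h.good.free a ha _ (h.lft_mem.2 hx) (by rw [← h.lft_act ha, e]))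
    fun x a x₀ x₁ h1 h2 h3 h4 h5 h6 h7 => h.good.prp (fun n => lft b c (x n)) (fun n => (1, a n)) _ _
      (fun n => isUnit_one_prod (h1 n)) (fun n => h.lft_mem.2 (h2 n)) (h.lft_mem.2 h3)
      (h.lft_mem.2 h4) ((continuous_lft.tendsto _).comp h5)
      (((continuous_lft.tendsto _).comp h6).congr fun n => h.lft_act (h1 n) _)
      (tendsto_atTop_mono (fun n => norm_snd_le ((1, a n) : (Empty → ℂ) × (R → ℂ))) h7)

theorem openU : IsOpen (F.tot b c Ω).U :=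
  (h.good.openU.preimage continuous_lft).inter
    (h.deg.opn.preimage (f := fun x : J → ℂ => x b * x c) (by fun_prop))

theorem exists_cpt {A : Set ℂ} (hA : A ⊆ Ω) (hc : IsCompact A) : ∃ C ⊆ (F.tot b c Ω).cone,
    IsCompact C ∧ ∀ x ∈ ovr (F.tot b c Ω) b c A, ∃ t, IsUnit t ∧ (F.tot b c Ω).act t x ∈ C := by
  obtain ⟨C, h1, h2, h3⟩ := h.good.cpt ((fun (t : ℂ) (_ : Option Empty) => t) '' A)
    (by rintro _ ⟨t, ht, rfl⟩; exact h.dsc_sub hA ⟨trivial, ht⟩) (hc.image (by fun_prop))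
  refine ⟨Prod.snd '' C, by rintro _ ⟨z, hz, rfl⟩; exact (h.mem_cone.1 (h1 hz)).2,
    h2.image continuous_snd, fun x hx => ?_⟩
  obtain ⟨t, h4, h5⟩ := h3 _ (h.lft_mem.2 hx.1) ⟨_, hx.2, rfl⟩
  exact ⟨t, h4, _, h.lft_act h4 x ▸ h5, rfl⟩

theorem reg_cone {x : J → ℂ} (hx : x ∈ (F.tot b c Ω).cone) (y : K → ℂ) : ∃ v : J → ℂ, v b = 0 ∧
    v c = 0 ∧ ∀ k, ∑ j, v j * eval x (pderiv j ((F.tot b c Ω).F k)) = y k := by
  obtain ⟨η, h1, h2⟩ := h.reg.ind _ (h.lft_mem.2 hx) y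
  refine ⟨η, h1 b (h.deg.not_mov.2 (.inl rfl)), h1 c (h.deg.not_mov.2 (.inr rfl)), fun k => ?_⟩
  rw [← h2 k trivial]
  exact Finset.sum_congr rfl fun j _ => by rw [jac, h.fib_F, mul_comm]; rfl

theorem dg {r : ℝ} (hr : 0 < r) (e : Metric.closedBall 0 r ⊆ Ω) : Dg (F.tot b c Ω) i b c r where
  ne := h.deg.ne
  pos := hr
  wb := h.deg.wb
  wc := h.deg.wc
  hom := ⟨F.χ, fun k α hα => h.good.hom k α (support_map_subset _ _ hα)⟩
  openU := h.openU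
  invU _ ht x hx := ⟨h.lft_act ht x ▸ h.good.invU _ (isUnit_one_prod ht) _ hx.1,
    (h.act_bc ht x).symm ▸ hx.2⟩
  amp := let ⟨θ₀, N, h1⟩ := h.good.ample
    ⟨N • θ₀, fun a ha _ hx => h1.2.2 a (ha.imp_right fun ⟨l, k⟩ => ⟨l, .inl k⟩) _ (h.lft_mem.2 hx.1)⟩
  cpt := h.exists_cpt e (isCompact_closedBall 0 r)
  reg _ hx := h.reg_cone hx.1

theorem surj_cone {x : J → ℂ} (hx : x ∈ (F.tot b c Ω).cone) (y : K → ℂ) (u : ℂ × ℂ) :
    ∃ v : J → ℂ, (v b, v c) = u ∧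
      fderiv ℂ (fun (y : J → ℂ) k => eval y ((F.tot b c Ω).F k)) x v = y := by
  classical
  let v₀ : J → ℂ := Pi.single b u.1 + Pi.single c u.2
  obtain ⟨v, h1, h2, h3⟩ := h.reg_cone hx
    (y - fderiv ℂ (fun (y : J → ℂ) k => eval y ((F.tot b c Ω).F k)) x v₀)
  refine ⟨v + v₀, by simp [v₀, h1, h2, h.deg.ne, h.deg.ne.symm], ?_⟩
  rw [map_add, ← eq_sub_iff_add_eq]
  rw [fderiv_pi fun k =>
    (AnalyticOnNhd.eval_mvPolynomial ((F.tot b c Ω).F k) x trivial).differentiableAt] at h3 ⊢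
  exact _root_.funext fun k => (DgI.fderiv_eval _ _ _).trans (h3 k)

section cutout

variable {S : Set (J → ℂ)} {B : Type} [NormedAddCommGroup B] [NormedSpace ℂ B]
  [FiniteDimensional ℂ B] {g : ℂ × ℂ → B} (hg : ∀ u, AnalyticAt ℂ g u)
  (hS : ∀ y, y ∈ S ↔ y ∈ (F.tot b c Ω).cone ∧ g (y b, y c) = 0)
include hg hS

theorem exists_isMfd {x : J → ℂ} (hx : x ∈ S) {L : ℂ × ℂ →L[ℂ] B} (hL : HasFDerivAt g L (x b, x c))
    (hs : Surjective L) : ∃ m, m + (Fintype.card K + Module.finrank ℂ B) = Fintype.card J ∧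
      IsMfd (Subtype.val : S → J → ℂ) m ⟨x, hx⟩ ∧ ∀ u, L u = 0 →
        ∃ v ∈ tan (Subtype.val : S → J → ℂ) ⟨x, hx⟩, (v b, v c) = u := by
  have h0 := ((hS x).1 hx).1
  have h1 := (DgI.an_F (F.tot b c Ω) x).differentiableAt.hasFDerivAt.prodMk (hL.comp x
    ((ContinuousLinearMap.proj b).prod (ContinuousLinearMap.proj c) :
      (J → ℂ) →L[ℂ] ℂ × ℂ).hasFDerivAt)
  have h2 : Surjective (fderiv ℂ
      (fun y : J → ℂ => (fun k => eval y ((F.tot b c Ω).F k), g (y b, y c))) x) := fun z => by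
    obtain ⟨u, hu⟩ := hs z.2
    obtain ⟨v, k1, k2⟩ := h.surj_cone h0 z.1 u
    refine ⟨v, (DFunLike.congr_fun h1.fderiv v).trans (Prod.ext k2 ?_)⟩
    rw [← hu, ← k1]
    rfl
  obtain ⟨m, hm⟩ := Nat.exists_eq_add_of_le' (LinearMap.finrank_le_finrank_of_surjective
    (f := (fderiv ℂ (fun y : J → ℂ => (fun k => eval y ((F.tot b c Ω).F k), g (y b, y c))) x :
      (J → ℂ) →ₗ[ℂ] (K → ℂ) × B)) h2)
  obtain ⟨k1, k2⟩ := IsMfd.zeroSet (IsEmbedding.subtypeVal (p := (· ∈ S))) (z := ⟨x, hx⟩)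
    ((DgI.an_F (F.tot b c Ω) x).prod ((hg _).comp_of_eq (DgI.an_bc b c x) rfl)) h2 (by
      filter_upwards [h.openU.mem_nhds h0.1] with y e2
      rw [Subtype.range_val, hS, Prod.mk_eq_zero, funext_iff]
      exact and_congr_left fun _ => and_iff_right e2) hm.symm
  refine ⟨m, by simpa using hm.symm, k1, fun u hu => ?_⟩
  obtain ⟨v, k3, k4⟩ := h.surj_cone h0 0 u
  refine ⟨v, ?_, k3⟩
  rw [k2]
  exact (DFunLike.congr_fun h1.fderiv v).trans (Prod.ext k4 ((congrArg L k3).trans hu))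

theorem qm_of {t : ℂ} (ht : t ∈ Ω) (hs : S ⊆ ovr (F.tot b c Ω) b c {t})
    (hi : ∀ a, IsUnit a → ∀ x ∈ S, (F.tot b c Ω).act a x ∈ S)
    (hL : ∀ x ∈ S, ∃ L : ℂ × ℂ →L[ℂ] B, HasFDerivAt g L (x b, x c) ∧ Surjective L) {n : ℤ}
    (hn : n + Module.finrank ℂ B = F.dm + 2) : Tq.QM (F.tot b c Ω).act S n := by
  have h1 : IsClosed {y : J → ℂ | g (y b, y c) = 0} := isClosed_eq
    ((continuous_iff_continuousAt.2 fun u => (hg u).continuousAt).comp (by fun_prop))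
    continuous_const
  have h2 : FP (F.tot b c Ω).act S := h.fp_cone.mono (fun x hx => (hs hx).1) hi
    ((Set.ext hS : S = _) ▸ h.lc_cone.inter h1.isLocallyClosed)
  obtain ⟨C, h3, h4, h5⟩ := h.exists_cpt (singleton_subset_iff.2 ht) isCompact_singleton
  have h6 : C ∩ {y : J → ℂ | g (y b, y c) = 0} ⊆ S := fun x hx => (hS x).2 ⟨h3 hx.1, hx.2⟩
  have h7 := isCompact_iff_compactSpace.1 (h4.inter_right h1)
  have h8 : CompactSpace (Quo (F.tot b c Ω).act S) := by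
    refine ⟨(isCompact_range (Tq.continuous_mk.comp (continuous_inclusion h6))).of_isClosed_subset
      isClosed_univ fun z _ => ?_⟩
    obtain ⟨⟨x, hx⟩, rfl⟩ := mk_surj z
    obtain ⟨a, k1, k2⟩ := h5 x (hs hx)
    exact ⟨⟨_, k2, ((hS _).1 (hi a k1 x hx)).2⟩, mk_act k1 hx _⟩
  refine QM.of_mfd (lin_act _) fun x hx => ?_
  obtain ⟨L, k1, k2⟩ := hL x hx
  obtain ⟨m, k3, k4, -⟩ := h.exists_isMfd hg hS hx k1 k2
  refine ⟨m, ?_, hx, k4⟩
  rw [dm] at hn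
  rw [Module.finrank_fintype_fun_eq_card]
  omega

end cutout

theorem qm_ovr {t : ℂ} (ht : t ∈ Ω) (h0 : t ≠ 0) :
    QM (F.tot b c Ω).act (ovr (F.tot b c Ω) b c {t}) (F.dm + 1) :=
  h.qm_of (S := ovr _ b c {t}) (g := fun u => u.1 * u.2 - t) (fun _ => by fun_prop)
    (fun _ => and_congr_right fun _ => sub_eq_zero.symm) ht Subset.rfl (h.act_ovr _)
    (fun x hx => ⟨_, DgI.hasFDerivAt_mul _ t, DgI.exists_lin fun e => h0 (by
      rw [← mem_singleton_iff.1 hx.2, show x b = 0 from e.1, zero_mul])⟩) (by simp [add_assoc])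

theorem qm_left : QM (F.tot b c Ω).act (cut (F.tot b c Ω) {b}) (F.dm + 1) :=
  h.qm_of (S := cut _ {b}) (g := Prod.fst) (fun _ => analyticAt_fst)
    (fun _ => and_congr_right fun _ => forall_eq) h.deg.zero (h.cut_sub (Z := {b}) (.inl rfl)) (h.act_cut _)
    (fun _ _ => ⟨_, hasFDerivAt_fst, Prod.fst_surjective⟩) (by simp [add_assoc])

theorem qm_right : QM (F.tot b c Ω).act (cut (F.tot b c Ω) {c}) (F.dm + 1) :=
  h.qm_of (S := cut _ {c}) (g := Prod.snd) (fun _ => analyticAt_snd)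
    (fun _ => and_congr_right fun _ => forall_eq) h.deg.zero (h.cut_sub (Z := {c}) (.inr rfl)) (h.act_cut _)
    (fun _ _ => ⟨_, hasFDerivAt_snd, Prod.snd_surjective⟩) (by simp [add_assoc])

theorem qm_div : QM (F.tot b c Ω).act (cut (F.tot b c Ω) {b, c}) F.dm :=
  h.qm_of (g := id) (fun _ => analyticAt_id) (fun _ => and_congr_right fun _ => by simp)
    h.deg.zero (h.cut_sub (.inl (.inl rfl))) (h.act_cut _)
    (fun _ _ => ⟨_, hasFDerivAt_id _, surjective_id⟩) (by simp)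

section lift

variable {S : Set (J → ℂ)} {S' : Set ((Option Empty → ℂ) × (J → ℂ))}
  (e : ∀ z, z ∈ S' ↔ z = lft b c z.2 ∧ z.2 ∈ S)
include e

theorem hol_lft : Hol (F.tot b c Ω).act F.actT S S' (fun t => (1, t)) (lft b c) :=
  Hol.of_an ⟨rfl, fun _ _ _ _ => Prod.ext (mul_one _).symm rfl,
    fun _ _ => (continuous_const.prodMk continuous_id).continuousAt⟩
    (fun _ hx => (e _).2 ⟨rfl, hx⟩) (fun x _ => an_lft x) fun _ ha x _ => h.lft_act ha x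

theorem bij_lft : IsHomeomorph (h.hol_lft e).q :=
  ((h.hol_lft e).toEqh.toEqv.homeo (g := Prod.snd) ⟨fun z hz => ((e z).1 hz).2, continuousOn_snd,
    fun a ha z _ => ⟨a.2, (Prod.isUnit_iff.1 ha).2, congrArg Prod.snd (actT_eq b c Ω a z)⟩⟩
    (fun x _ => ⟨1, isUnit_one, (IsAct.one (S := univ) x trivial).symm⟩)
    fun z hz => ⟨1, isUnit_one, ((e z).1 hz).1.symm.trans (F.actT_one z).symm⟩).isHomeomorph

theorem fp_lft (hs : S ⊆ (F.tot b c Ω).cone)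
    (hi : ∀ a, IsUnit a → ∀ x ∈ S, (F.tot b c Ω).act a x ∈ S) (hl : IsLocallyClosed S) :
    FP F.actT S' := by
  refine h.good.fp_of (fun z hz => h.mem_cone.2 (((e z).1 hz).imp_right (hs ·))) (fun t ht z hz => ?_)
    ((Set.ext e : S' = _) ▸ (isClosed_eq continuous_id
      (continuous_lft.comp continuous_snd)).isLocallyClosed.inter (hl.preimage continuous_snd))
  obtain ⟨h1, h2⟩ := (e z).1 hz
  have h3 := (Prod.isUnit_iff.1 ht).2
  rw [actT_eq b c Ω, e]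
  exact ⟨Prod.ext ((congrArg Prod.fst h1).trans (_root_.funext fun _ => (h.act_bc h3 _).symm)) rfl,
    hi _ h3 _ h2⟩

theorem qm_lft {n : ℤ} (q : Tq.QM (F.tot b c Ω).act S n) (hs : S ⊆ (F.tot b c Ω).cone)
    (hl : IsLocallyClosed S) : F.QM S' n := by
  have h1 := q.cpt
  refine ⟨h.fp_lft e hs q.fp.mem hl, F.lin_actT,
    (h.bij_lft e).surjective.compactSpace (h.bij_lft e).continuous, fun z hz => ?_,
    fun hn => eq_empty_of_forall_notMem fun z hz => (q.neg hn).le ((e z).1 hz).2⟩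
  obtain ⟨k1, k2⟩ := (e z).1 hz
  have h2 := (q.dim _ k2).iso (S' := S') (G := Prod.snd) (an_lft _) analyticAt_snd
    (.of_forall fun y hy => ⟨(e _).2 ⟨rfl, hy⟩, rfl⟩)
    (.of_forall fun y hy => ⟨((e y).1 hy).2, ((e y).1 hy).1.symm⟩)
  rwa [← k1, show Module.finrank ℂ (R → ℂ) = Module.finrank ℂ ((Empty → ℂ) × (R → ℂ)) by simp] at h2

omit h in
theorem tan_lft {x : J → ℂ} (hx : x ∈ S) {m : ℕ} (hm : IsMfd (Subtype.val : S → J → ℂ) m ⟨x, hx⟩)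
    {v : J → ℂ} (hv : v ∈ tan (Subtype.val : S → J → ℂ) ⟨x, hx⟩) (hx' : lft b c x ∈ S') :
    ∃ w ∈ tan (Subtype.val : S' → _) ⟨lft b c x, hx'⟩, w.2 = v :=
  ⟨_, hm.fderiv_mem_tan (u := fun s : S => (⟨lft b c s, (e _).2 ⟨rfl, s.2⟩⟩ : S'))
    ((continuous_lft.comp continuous_subtype_val).subtype_mk _).continuousAt (an_lft x)
    (.of_forall fun _ => rfl) hv, DFunLike.congr_fun
      ((an_lft (b := b) (c := c) x).differentiableAt.hasFDerivAt.snd.unique (hasFDerivAt_id x)) v⟩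

end lift

theorem hol_ovr {A : Set ℂ} (hA : A ⊆ Ω) : Hol (F.tot b c Ω).act F.actT (ovr (F.tot b c Ω) b c A)
    (F.cT A) (fun t => (1, t)) (lft b c) := h.hol_lft (h.mem_cT hA)

theorem bij_ovr {A : Set ℂ} (hA : A ⊆ Ω) : IsHomeomorph (h.hol_ovr hA).q := h.bij_lft (h.mem_cT hA)

theorem hol_cut {Z : Set J} (hZ : b ∈ Z ∨ c ∈ Z) : Hol (F.tot b c Ω).act F.actT
    (cut (F.tot b c Ω) Z) (F.cZ Z) (fun t => (1, t)) (lft b c) := h.hol_lft (h.mem_cZ hZ)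

theorem bij_cut {Z : Set J} (hZ : b ∈ Z ∨ c ∈ Z) : IsHomeomorph (h.hol_cut hZ).q :=
  h.bij_lft (h.mem_cZ hZ)

theorem fp {A : Set ℂ} (hA : A ⊆ Ω) (hl : IsLocallyClosed A) : FP F.actT (F.cT A) :=
  h.fp_lft (h.mem_cT hA) (fun _ hx => hx.1) (h.act_ovr A) (h.lc_ovr hl)

theorem qm_fib {t : ℂ} (ht : t ∈ Ω) (h0 : t ≠ 0) : F.QM (F.cX t) (F.dm + 1) :=
  h.qm_lft (h.mem_cT (singleton_subset_iff.2 ht)) (h.qm_ovr ht h0) (fun _ hx => hx.1)
    (h.lc_ovr isClosed_singleton.isLocallyClosed)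

theorem qm_cZ {Z : Set J} (hZ : b ∈ Z ∨ c ∈ Z) {n : ℤ}
    (q : Tq.QM (F.tot b c Ω).act (cut (F.tot b c Ω) Z) n) : F.QM (F.cZ Z) n :=
  h.qm_lft (h.mem_cZ hZ) q (fun _ hx => hx.1) (h.lc_cut Z)

omit h in
theorem cZ_anti {Z Z' : Set J} (e : Z ⊆ Z') : F.cZ Z' ⊆ F.cZ Z :=
  cone_sub (F := F.sub (slab univ 0) Z) Subset.rfl e

theorem push_fld {j j' : J} (hj : j = b ∧ j' = c ∨ j = c ∧ j' = b) {n m : ℤ}
    (qA : F.QM (F.cZ {j}) n) (qD : F.QM (F.cZ {b, c}) m) (e : F.cZ {b, c} ⊆ F.cZ {j}) :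
    PS.push (X := qD.ps) (Y := qA.ps) (qinc F.actT e) 1 = F.lc (F.cZ {j}) 0 (F.w j') := by
  have h0 : b ∈ ({j} : Set J) ∨ c ∈ ({j} : Set J) := hj.imp (·.1.symm) (·.1.symm)
  let p : (Option Empty → ℂ) × (J → ℂ) →L[ℂ] ℂ :=
    (ContinuousLinearMap.proj j').comp (ContinuousLinearMap.snd ℂ _ _)
  refine qA.push_one' (s := fun z => z.2 j') (hm_chT 0 (F.w j')) (by fun_prop)
    (fun a _ x _ => by rw [Wt.actT_snd, Subsingleton.elim (F.wt j') 0]) (fun x => ?_)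
    (fun x _ => analyticAt_pi_iff.1 analyticAt_snd j') (fun x hx _ => ?_) qD e
  · rw [h.mem_cZ h0, h.mem_cZ (.inl (.inl rfl))]
    rcases hj with ⟨rfl, rfl⟩ | ⟨rfl, rfl⟩ <;> simp [Mono.cut, and_assoc, and_comm, and_left_comm]
  · obtain ⟨k1, k2⟩ := (h.mem_cZ h0 x).1 hx
    obtain ⟨y, rfl⟩ : ∃ y, x = lft b c y := ⟨_, k1⟩
    obtain ⟨m, v, k3, k4, k5⟩ : ∃ m v, IsMfd (Subtype.val : cut (F.tot b c Ω) {j} → J → ℂ) m ⟨y, k2⟩ ∧
        v ∈ tan (Subtype.val : cut (F.tot b c Ω) {j} → J → ℂ) ⟨y, k2⟩ ∧ v j' = 1 := by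
      rcases hj with ⟨rfl, rfl⟩ | ⟨rfl, rfl⟩
      · obtain ⟨m, -, k3, k4⟩ := h.exists_isMfd (S := cut _ {j}) (g := Prod.fst)
          (fun _ => analyticAt_fst)
          (fun _ => and_congr_right fun _ => forall_eq) k2 hasFDerivAt_fst Prod.fst_surjective
        obtain ⟨v, k5, k6⟩ := k4 (0, 1) rfl
        exact ⟨m, v, k3, k5, congrArg Prod.snd k6⟩
      · obtain ⟨m, -, k3, k4⟩ := h.exists_isMfd (S := cut _ {j}) (g := Prod.snd)
          (fun _ => analyticAt_snd)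
          (fun _ => and_congr_right fun _ => forall_eq) k2 hasFDerivAt_snd Prod.snd_surjective
        obtain ⟨v, k5, k6⟩ := k4 (1, 0) rfl
        exact ⟨m, v, k3, k5, congrArg Prod.fst k6⟩
    obtain ⟨w, k6, rfl⟩ := tan_lft (h.mem_cZ h0) k2 k3 k4 hx
    exact ⟨w, k6, ((DFunLike.congr_fun p.fderiv w).trans k5).trans_ne one_ne_zero⟩

theorem isPc_left : F.IsPc (F.cZ {b}) (F.cZ {b, c}) F.dm (F.lc _ 0 (F.w c)) 1 := by
  have h1 := h.qm_cZ (Z := {b}) (.inl rfl) h.qm_left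
  have h2 := h.qm_cZ (Z := {b, c}) (.inl (.inl rfl)) h.qm_div
  have h3 := h1.fp
  have h4 := h2.fp
  refine ⟨h1, h2, cZ_anti (by simp), ?_⟩
  rw [h.push_fld (.inl ⟨rfl, rfl⟩), one_smul]
  exact Wt.rs_lc _ _ _

theorem isPc_right : F.IsPc (F.cZ {c}) (F.cZ {b, c}) F.dm (F.lc _ 0 (F.w c)) (-1) := by
  have h1 := h.qm_cZ (Z := {c}) (.inr rfl) h.qm_right
  have h2 := h.qm_cZ (Z := {b, c}) (.inl (.inl rfl)) h.qm_div
  have h3 := h1.fp
  have h4 := h2.fp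
  refine ⟨h1, h2, cZ_anti (by simp), ?_⟩
  rw [h.push_fld (.inr ⟨rfl, rfl⟩), neg_one_smul, ← Wt.lc_neg, neg_zero, h.deg.wc, neg_neg,
    h.deg.wb]
  exact Wt.rs_lc _ _ _

theorem push_left : PS.push h.isPc_left.pc.j 1 = F.lc (F.cZ {b}) 0 (F.w c) :=
  h.push_fld (.inl ⟨rfl, rfl⟩) h.isPc_left.qA h.isPc_left.qD h.isPc_left.sub

theorem push_right : PS.push h.isPc_right.pc.j 1 = F.lc (F.cZ {c}) 0 (F.w b) :=
  h.push_fld (.inr ⟨rfl, rfl⟩) h.isPc_right.qA h.isPc_right.qD h.isPc_right.sub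

end DG

end Fam

end Vale.Agent.P269
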