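import Vale.Agent.P287Q.G.Coh.QM
import Vale.Agent.P269.Coh.Iso

/-!
# P269, cohomological packages: pieces and smoothings inside one presentation
-/

set_option linter.unusedSectionVars false

namespace Vale.Agent.P269.Wt

open Set Function Topology Filter P291Z Holo Mono Coh Tq Fock

variable {S Λ R J : Type} [Fintype S] [Fintype Λ] [Fintype R] [Fintype J] (W : Wt S Λ R J)
  {A A₁ A₂ D X T : Set ((Λ → ℂ) × (J → ℂ))} {n : ℤ} {c : H (W.X D)} {ε : ℂ}

/-- `D` is a divisor in `A` with normal class `ε c`. -/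
structure IsPc (A D : Set ((Λ → ℂ) × (J → ℂ))) (n : ℤ) (c : H (W.X D)) (ε : ℂ) : Prop where
  qA : W.QM A (n + 1)
  qD : W.QM D n
  sub : D ⊆ A
  si : H.map (qinc W.actT sub) (PS.push (X := qD.ps) (Y := qA.ps) (qinc W.actT sub) 1) = ε • c

variable {W}

/-- The piece. -/
@[reducible] noncomputable def IsPc.pc (h : W.IsPc A D n c ε) : Pc h.qD.ps c ε where
  toPS := h.qA.ps
  j := qinc W.actT h.sub
  dim := rfl
  si x := by
    rw [PS.Geo.map_push h.qD.geo h.qA.geo (h.qA.qinc_injective h.sub), h.si, smul_mul_assoc]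

variable (W) in
/-- `T` contains the pieces `A₁`, `A₂` and the smoothing `X`. -/
structure IsSk (A₁ A₂ D X T : Set ((Λ → ℂ) × (J → ℂ))) (n : ℤ) (c : H (W.X D)) : Prop where
  l : W.IsPc A₁ D n c 1
  r : W.IsPc A₂ D n c (-1)
  qX : W.QM X (n + 1)
  fp : FP W.actT T
  s1 : A₁ ⊆ T
  s2 : A₂ ⊆ T
  sX : X ⊆ T
  mv : ∀ t1 t2, H.map (qinc W.actT l.sub) t1 = H.map (qinc W.actT r.sub) t2 →
    ∃ w, H.map (qinc W.actT s1) w = t1 ∧ H.map (qinc W.actT s2) w = t2
  int : ∀ w, qX.ps.J (H.map (qinc W.actT sX) w) =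
    l.qA.ps.J (H.map (qinc W.actT s1) w) + r.qA.ps.J (H.map (qinc W.actT s2) w)

/-- The smoothing. -/
@[reducible] noncomputable def IsSk.sk (h : W.IsSk A₁ A₂ D X T n c) : Sk h.l.pc h.r.pc where
  toPS := h.qX.ps
  W := W.X T
  k1 := qinc W.actT h.s1
  k2 := qinc W.actT h.s2
  k := qinc W.actT h.sX
  dim := rfl
  sq x := by
    obtain ⟨x, rfl⟩ := Tq.mk_surj x
    rfl
  mv := h.mv
  int := h.int

end Vale.Agent.P269.Wt
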