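import Vale.Agent.P269.Coh.Geo
import Vale.Agent.P287Q.G.Prj.Tgt
import Vale.Agent.P269.Loc.FE
import Vale.Agent.P287Q.Hb.QM

set_option linter.unusedSectionVars false
set_option linter.style.haveILetI false

namespace Vale.Agent.P269

open Set Function Topology Filter P291Z Holo Mono Coh Tq Fock

variable {S Λ R J K : Type} [Fintype S] [Fintype Λ] [Fintype R] [Fintype J] [Fintype K]

namespace Wt

variable {W : Wt S Λ R J} {A : Set ((Λ → ℂ) × (J → ℂ))} {n : ℤ}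

variable (W A n) in
/-- The quotient is a compact complex manifold of dimension `n`. -/
abbrev QM : Prop := Tq.QM W.actT A n

theorem QM.J_eq (h : W.QM A n) (c : H (W.X A)) : h.ps.J c = W.intX A c := h.J_eq_ev c

theorem QM.lc_deg (h : W.QM A n) (ψ : S → ℤ) (χ : R → ℤ) : H.IsDeg 2 (W.lc A ψ χ) :=
  haveI := h.fp
  Wt.lc_deg ψ χ

end Wt

namespace Fam

variable {F : Fam S Λ R J K} {n : ℤ}

theorem QMA.c1_eq (A : Set _) : F.c1 A = ∑ j ∈ (toFinite F.mov).toFinset,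
    F.lc A (F.wt j) (F.w j) - ∑ q, F.lc A (F.wk q) (F.χ q) := by
  rw [c1, finsum_mem_eq_finite_toFinset_sum]

theorem c1_deg {A : Set _} (h : FP F.actT A) : H.IsDeg 2 (F.c1 A) := by
  rw [QMA.c1_eq]
  exact (H.deg _ 2).sub_mem ((H.deg _ 2).sum_mem fun _ _ => Wt.lc_deg _ _)
    ((H.deg _ 2).sum_mem fun _ _ => Wt.lc_deg _ _)

theorem rs_c1 {A A' : Set _} (h : FP F.actT A) (h' : FP F.actT A') (e : A ⊆ A') :
    H.map (qinc F.actT e) (F.c1 A') = F.c1 A := by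
  simp only [← Wt.rs_eq, QMA.c1_eq, map_sub, map_sum, Wt.rs_lc]

theorem isCoh (h : F.QM F.cone n) : F.IsCoh h.ps.coh .id :=
  ⟨bijective_id, fun _ => rfl, fun a b => (h.ps.η_eq a b).trans (h.J_eq _), h.ps.one_eq⟩

variable {F : Fam Empty Λ R J K}

theorem cm_c1 {A : Set _} {ν : Module.End ℂ (H (F.X A))} (hc : ∀ χ, Cm ν (F.lc A 0 χ)) :
    Cm ν (F.c1 A) := by
  have h : ∀ ψ χ, Cm ν (F.lc A ψ χ) := fun ψ χ => Subsingleton.elim 0 ψ ▸ hc χ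
  rw [QMA.c1_eq]
  exact (Cm.sum _ fun _ _ => h _ _).sub (Cm.sum _ fun _ _ => h _ _)

theorem c1_mem {A : Set _} {U : Submodule ℂ (H (F.X A))} (hc : ∀ χ, F.lc A 0 χ ∈ U) :
    F.c1 A ∈ U := by
  have h : ∀ ψ χ, F.lc A ψ χ ∈ U := fun ψ χ => Subsingleton.elim 0 ψ ▸ hc χ
  rw [QMA.c1_eq]
  exact U.sub_mem (U.sum_mem fun _ _ => h _ _) (U.sum_mem fun _ _ => h _ _)

/-- the standard Virasoro data attached to `ν` -/
theorem std (h : F.QM F.cone n) {ν : Module.End ℂ (H (F.X F.cone))} (hν : h.ps.Nu ν)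
    (hc : ∀ χ, Cm ν (F.lc _ 0 χ)) {ρ : H (F.X F.cone)} (hρ : H.IsDeg 2 ρ) (hm : Cm ν ρ)
    (e : ρ = F.c1 _) : F.Std h.ps.coh .id (PS.vd hν hρ hm) :=
  { isCoh h with
    ρ := fun v => congrArg (· * v) e
    deg := fun k v hv => (H.deg _ k).add_mem (PS.A1.mu0_deg k v hv) (hν.deg k v hv)
    lc := fun χ v v' e' => by
      obtain rfl : v' = F.lc _ 0 χ * v := e'
      show h.ps.mu0 (_ * v) + ν (_ * v) = _ * (h.ps.mu0 v + ν v) + _ * v
      rw [PS.mu0_mul (h.lc_deg 0 χ), hc, mul_add, add_right_comm] }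

/-- conversely -/
theorem Std.exists_nu (h : F.QM F.cone n) {C : Deg.Coh} {i : C.H →ₗ[ℂ] H (F.X F.cone)} {d : VD C.fr}
    (s : F.Std C i d) (h1 : d.μ C.fr.one = (-n / 2 : ℂ) • C.fr.one) :
    ∃ ν, h.ps.Nu ν ∧ (∀ χ, Cm ν (F.lc _ 0 χ)) ∧ ∀ v, i (d.μ v) = (h.ps.mu0 + ν) (i v) := by
  let e := LinearEquiv.ofBijective i s.bij
  have h2 : ∀ v, (e.conj d.μ - h.ps.mu0) (i v) = i (d.μ v) - h.ps.mu0 (i v) := fun v =>
    congrArg (fun x => i (d.μ x) - h.ps.mu0 (i v)) (e.symm_apply_apply v)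
  refine ⟨e.conj d.μ - h.ps.mu0, ⟨fun k => s.bij.2.forall.2 fun v hv => ?_,
    s.bij.2.forall₂.2 fun a b => ?_, ?_⟩, fun χ => s.bij.2.forall.2 fun v => ?_, fun v => ?_⟩
  · rw [h2]
    exact (H.deg _ k).sub_mem (s.deg k v hv) (PS.A1.mu0_deg k _ hv)
  · rw [h2, h2, sub_mul, mul_sub, map_sub, map_sub, PS.mu0_skew, h.J_eq (i _ * i b),
      h.J_eq (i a * i _), ← s.η, ← s.η, d.adjμ, neg_sub', sub_neg_eq_add]
  · have h3 := h2 C.fr.one
    rw [h1, map_smul, s.one] at h3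
    rw [h3, PS.mu0_of_deg H.isDeg_one, Int.cast_zero, zero_sub, sub_self]
  · obtain ⟨v', hv⟩ := s.bij.2 (F.lc _ 0 χ * i v)
    have h3 := h2 v'
    rw [s.lc χ v v' hv, hv] at h3
    rw [h3, h2, PS.mu0_mul (h.lc_deg 0 χ), mul_sub, add_sub_add_right_eq_sub]
  · rw [LinearMap.add_apply, h2, add_sub_cancel]

end Fam

end Vale.Agent.P269
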